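import Mathlib
import Vale.Agent.P050.Final

/-- Sidorenko's conjecture is false: there are a finite bipartite graph `H` with at least one edge
and a finite graph `G` with at least one vertex such that `t(H,G) < p(G) ^ |E(H)|`. -/
theorem Vale.Agent.Results.P050.NotSidorenko.result :
    ∃ (k n : ℕ) (H : SimpleGraph (Fin k)) (G : SimpleGraph (Fin n)),
      0 < n ∧ H.IsBipartite ∧ H.edgeSet.Nonempty ∧
      (Nat.card (H →g G) : ℝ) / (n : ℝ) ^ k <
        (2 * (G.edgeSet.ncard : ℝ) / (n : ℝ) ^ 2) ^ H.edgeSet.ncard :=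
  Vale.Agent.P050.not_sidorenko
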